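import Mathlib

/-! P235 (ST) O(1), PART B in one hand (helper530): the world and the clocks. -/

namespace Vale.Agent.P235.ST.H530

open SimpleGraph

structure UW {V : Type} (G : SimpleGraph V) (u : V → ℤ) (idx : V → ℕ) (L : ℕ → Set V) :
    Prop where
  conn : G.Connected
  step : ∀ x y, G.Adj x y → |u x - u y| = 1
  mem : ∀ p, p ∈ L (idx p)
  low : ∀ k, ∀ z ∈ L k, idx z ≤ k
  line : ∀ k, ∀ x ∈ L k, ∀ y ∈ L k, u x ≤ u y → ∃ w : G.Walk x y,
    (w.length : ℤ) = u y - u x ∧ ∀ z ∈ w.support, z ∈ L k ∧ u x ≤ u z ∧ u z ≤ u y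
  full : ∀ p z, ∃ x ∈ L (idx p), u x = u z
  sep : ∀ p a b (w : G.Walk a b), idx a ≤ idx p → idx p ≤ idx b →
    ∃ z ∈ w.support, z ∈ L (idx p)

variable {V : Type} {G : SimpleGraph V} {u : V → ℤ} {idx : V → ℕ} {L : ℕ → Set V}

/-- The band graph of thickness `h` and offset `o`. -/
def HG (G : SimpleGraph V) (u : V → ℤ) (h o : ℤ) : SimpleGraph V where
  Adj x y := G.Adj x y ∧ (u x - o) / h = (u y - o) / h
  symm := ⟨fun _ _ hxy => ⟨hxy.1.symm, hxy.2.symm⟩⟩
  loopless := ⟨fun _ hx => G.loopless.irrefl _ hx.1⟩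

theorem HG_le (h o : ℤ) : HG G u h o ≤ G := fun _ _ hxy => hxy.1

theorem band_of_reach {h o : ℤ} {x y : V} (hr : (HG G u h o).Reachable x y) :
    (u x - o) / h = (u y - o) / h := by
  obtain ⟨w⟩ := hr
  induction w with
  | nil => rfl
  | cons hab _ ih => exact hab.2.trans ih

/-- lift of a walk which stays in one band -/
theorem lift_walk {h o : ℤ} {c : ℤ} {a b : V} (w : G.Walk a b)
    (hb : ∀ z ∈ w.support, (u z - o) / h = c) :
    ∃ w' : (HG G u h o).Walk a b, w'.length = w.length ∧ w'.support = w.support := by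
  induction w with
  | nil => exact ⟨Walk.nil, rfl, rfl⟩
  | @cons a b d hab w ih =>
    obtain ⟨w', hl, hs⟩ := ih (fun z hz => hb z (by simp [hz]))
    have h1 := hb a (by simp)
    have h2 := hb b (by simp)
    have hadj : (HG G u h o).Adj a b := ⟨hab, h1.trans h2.symm⟩
    exact ⟨Walk.cons hadj w', by rw [Walk.length_cons, Walk.length_cons, hl],
      by rw [Walk.support_cons, Walk.support_cons, hs]⟩

/-- the walk seen in G -/
theorem down_walk {h o : ℤ} {a b : V} (w : (HG G u h o).Walk a b) :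
    ∃ w' : G.Walk a b, w'.length = w.length ∧ w'.support = w.support := by
  induction w with
  | nil => exact ⟨Walk.nil, rfl, rfl⟩
  | @cons a b d hab w ih =>
    obtain ⟨w', hl, hs⟩ := ih
    exact ⟨Walk.cons hab.1 w', by simp [hl], by simp [hs]⟩

/-- the clock -/
noncomputable def DD (G : SimpleGraph V) (u : V → ℤ) (idx : V → ℕ) (h o : ℤ) (x : V) : ℕ :=
  sInf {n | ∃ (y : V) (w : (HG G u h o).Walk y x), w.length = n ∧
    ∀ z, (HG G u h o).Reachable x z → idx y ≤ idx z}

theorem DD_spec (h o : ℤ) (x : V) : ∃ (y : V) (w : (HG G u h o).Walk y x),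
    w.length = DD G u idx h o x ∧ ∀ z, (HG G u h o).Reachable x z → idx y ≤ idx z := by
  have hne : {n | ∃ (y : V) (w : (HG G u h o).Walk y x), w.length = n ∧
    ∀ z, (HG G u h o).Reachable x z → idx y ≤ idx z}.Nonempty := by
    have hS : {n | ∃ z, (HG G u h o).Reachable x z ∧ idx z = n}.Nonempty :=
      ⟨idx x, x, Reachable.refl x, rfl⟩
    obtain ⟨y, hy, hy'⟩ := Nat.sInf_mem hS
    obtain ⟨w⟩ := hy.symm
    refine ⟨w.length, y, w, rfl, fun z hz => ?_⟩
    rw [hy']
    exact Nat.sInf_le ⟨z, hz, rfl⟩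
  exact Nat.sInf_mem hne

theorem DD_le {h o : ℤ} {x y : V} (w : (HG G u h o).Walk y x)
    (hm : ∀ z, (HG G u h o).Reachable x z → idx y ≤ idx z) :
    DD G u idx h o x ≤ w.length :=
  Nat.sInf_le ⟨y, w, rfl, hm⟩

theorem DD_walk {h o : ℤ} {a b : V} (w : (HG G u h o).Walk a b) :
    DD G u idx h o b ≤ DD G u idx h o a + w.length := by
  obtain ⟨y, w0, hl, hm⟩ := DD_spec (G := G) (u := u) (idx := idx) h o a
  have := DD_le (idx := idx) (w0.append w) (fun z hz => hm z (w.reachable.trans hz))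
  rw [Walk.length_append] at this
  omega

/-- a line segment between two points of the line in one band -/
theorem line_walk (hW : UW G u idx L) {h o : ℤ} (hh : 0 < h) {k : ℕ} {x y : V} (hx : x ∈ L k)
    (hy : y ∈ L k) (hb : (u x - o) / h = (u y - o) / h) :
    ∃ w : (HG G u h o).Walk x y, (w.length : ℤ) = |u x - u y| := by
  rcases le_total (u x) (u y) with hxy | hxy
  · obtain ⟨w, hl, hs⟩ := hW.line k x hx y hy hxy
    obtain ⟨w', hl', -⟩ := lift_walk (u := u) (h := h) (o := o) (c := (u x - o) / h) w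
      (fun z hz => le_antisymm
        (hb ▸ Int.ediv_le_ediv hh (by linarith [(hs z hz).2.2]))
        (Int.ediv_le_ediv hh (by linarith [(hs z hz).2.1])))
    exact ⟨w', by rw [hl', hl, abs_sub_comm, abs_of_nonneg (by linarith)]⟩
  · obtain ⟨w, hl, hs⟩ := hW.line k y hy x hx hxy
    obtain ⟨w', hl', -⟩ := lift_walk (u := u) (h := h) (o := o) (c := (u x - o) / h) w
      (fun z hz => le_antisymm
        (Int.ediv_le_ediv hh (by linarith [(hs z hz).2.2]))
        (hb ▸ Int.ediv_le_ediv hh (by linarith [(hs z hz).2.1])))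
    exact ⟨w'.reverse, by rw [Walk.length_reverse, hl', hl, abs_of_nonneg (by linarith)]⟩

theorem band_diff {h o : ℤ} (hh : 0 < h) {a b : ℤ} (hb : (a - o) / h = (b - o) / h) :
    |a - b| < h := by
  have h1 := Int.emod_add_mul_ediv (a - o) h
  have h2 := Int.emod_add_mul_ediv (b - o) h
  have h3 := Int.emod_nonneg (a - o) hh.ne'
  have h4 := Int.emod_lt_of_pos (a - o) hh
  have h5 := Int.emod_nonneg (b - o) hh.ne'
  have h6 := Int.emod_lt_of_pos (b - o) hh
  rw [hb] at h1
  rw [abs_lt]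
  constructor <;> linarith

/-- the key splitting: the optimal walk to `q` meets the line of `p` -/
theorem split (hW : UW G u idx L) {h o : ℤ} (hh : 0 < h) {p q : V}
    (hr : (HG G u h o).Reachable q p) (hi : idx p ≤ idx q) :
    ∃ (m : V) (w : (HG G u h o).Walk m q), m ∈ L (idx p) ∧
      DD G u idx h o m + w.length ≤ DD G u idx h o q ∧
      ∃ w2 : (HG G u h o).Walk m p, (w2.length : ℤ) = |u m - u p| := by
  obtain ⟨y, w0, hl, hm⟩ := DD_spec (G := G) (u := u) (idx := idx) h o q
  obtain ⟨w1, -, hs1⟩ := down_walk w0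
  obtain ⟨m, hm1, hm2⟩ := hW.sep p y q w1 (hm p hr) hi
  rw [hs1] at hm1
  classical
  have hsplit := w0.take_spec hm1
  have hlen : (w0.takeUntil m hm1).length + (w0.dropUntil m hm1).length = w0.length := by
    rw [← Walk.length_append, hsplit]
  refine ⟨m, w0.dropUntil m hm1, hm2, ?_, ?_⟩
  · have := DD_le (idx := idx) (w0.takeUntil m hm1)
      (fun z hz => hm z ((w0.dropUntil m hm1).reachable.symm.trans hz))
    omega
  · exact line_walk hW hh hm2 (hW.mem p)
      (band_of_reach ((w0.dropUntil m hm1).reachable.trans hr))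

theorem height_walk (hs : ∀ x y, G.Adj x y → |u x - u y| = 1) {a b : V} (w : G.Walk a b) :
    |u a - u b| ≤ (w.length : ℤ) := by
  induction w with
  | nil => simp
  | @cons a b c hab w ih =>
    have h1 := hs a b hab
    have h2 := abs_sub_le (u a) (u b) (u c)
    rw [Walk.length_cons]
    push_cast
    linarith

theorem height_dist (hW : UW G u idx L) (a b : V) : |u a - u b| ≤ (G.dist a b : ℤ) := by
  obtain ⟨w, hw⟩ := hW.conn.exists_walk_length_eq_dist a b
  rw [← hw]
  exact height_walk hW.step w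

theorem height_walk' (hs : ∀ x y, G.Adj x y → |u x - u y| = 1) {h o : ℤ} {a b : V}
    (w : (HG G u h o).Walk a b) : |u a - u b| ≤ (w.length : ℤ) := by
  obtain ⟨w', hl, -⟩ := down_walk w
  rw [← hl]
  exact height_walk hs w'

theorem dist_walk' {h o : ℤ} {a b : V}
    (w : (HG G u h o).Walk a b) : G.dist a b ≤ w.length := by
  obtain ⟨w', hl, -⟩ := down_walk w
  rw [← hl]
  exact dist_le w'

/-- (M) -/
theorem clock_M (hW : UW G u idx L) {h o : ℤ} (hh : 0 < h) {q y : V}
    (hr : (HG G u h o).Reachable q y) (hi : idx q ≤ idx y) :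
    (DD G u idx h o q : ℤ) ≤ DD G u idx h o y + |u q - u y| := by
  obtain ⟨m, w, -, h1, w2, h2⟩ := split hW hh hr.symm hi
  have h3 := DD_walk (idx := idx) w2
  have h4 := height_walk' hW.step w
  have h5 := abs_sub_le (u m) (u y) (u q)
  rw [abs_sub_comm (u y) (u q)] at h5
  zify at h1 h3
  linarith

/-- (T) -/
theorem clock_T (hW : UW G u idx L) {h o : ℤ} (hh : 0 < h) {p q : V}
    (hr : (HG G u h o).Reachable p q) (hi : idx p ≤ idx q) :
    (DD G u idx h o p : ℤ) + G.dist p q ≤ DD G u idx h o q + 2 * h := by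
  obtain ⟨m, w, -, h1, w2, h2⟩ := split hW hh hr.symm hi
  have h3 := DD_walk (idx := idx) w2
  have h4 := dist_walk' w
  have h5 := dist_walk' w2
  have h6 := band_diff hh (band_of_reach w2.reachable)
  have h7 : G.dist p q ≤ G.dist p m + G.dist m q := hW.conn.dist_triangle
  rw [G.dist_comm (u := p) (v := m)] at h7
  zify at h1 h3 h4 h5 h7
  linarith

end Vale.Agent.P235.ST.H530
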