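import Vale.Agent.P235.ST.H530.Clock

/-! P235 (ST) O(1), PART B in one hand (helper530): costs of walks, the stretch lemma. -/

namespace Vale.Agent.P235.ST.H530

open SimpleGraph

variable {V : Type} {G : SimpleGraph V} {u : V → ℤ} {idx : V → ℕ} {L : ℕ → Set V}

/-- cost of a walk -/
def cost (U : V → ℝ) {p q : V} (g : G.Walk p q) : ℝ :=
  (g.darts.map fun d => |U d.fst - U d.snd|).sum

theorem cost_nil (U : V → ℝ) (p : V) : cost U (Walk.nil : G.Walk p p) = 0 := by
  simp [cost]

theorem cost_cons (U : V → ℝ) {a b c : V} (h : G.Adj a b) (w : G.Walk b c) :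
    cost U (Walk.cons h w) = |U a - U b| + cost U w := by
  simp [cost]

theorem cost_append (U : V → ℝ) {a b c : V} (w1 : G.Walk a b) (w2 : G.Walk b c) :
    cost U (w1.append w2) = cost U w1 + cost U w2 := by
  simp [cost]

theorem cost_reverse (U : V → ℝ) {a b : V} (w : G.Walk a b) :
    cost U w.reverse = cost U w := by
  induction w with
  | nil => simp [cost]
  | @cons a b c h w ih =>
    rw [Walk.reverse_cons, cost_append, ih, cost_cons, cost_cons, cost_nil, abs_sub_comm]
    ring

theorem cost_nonneg (U : V → ℝ) {a b : V} (w : G.Walk a b) : 0 ≤ cost U w := by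
  induction w with
  | nil => simp [cost]
  | @cons a b c h w ih =>
    rw [cost_cons]
    positivity

theorem cost_ge (U : V → ℝ) {a b : V} (w : G.Walk a b) : |U a - U b| ≤ cost U w := by
  induction w with
  | nil => simp [cost]
  | @cons a b c h w ih =>
    rw [cost_cons]
    linarith [abs_sub_le (U a) (U b) (U c)]

/-- first vertex with a property -/
theorem first (P : V → Prop) {p q : V} (g : G.Walk p q) (h : ∃ v ∈ g.support, P v) :
    ∃ (v : V) (g1 : G.Walk p v) (g2 : G.Walk v q), g = g1.append g2 ∧ P v ∧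
      ∀ x ∈ g1.support, x ≠ v → ¬ P x := by
  induction g with
  | @nil a =>
    obtain ⟨v, hv, hP⟩ := h
    have hv' : v = a := by simpa using hv
    subst hv'
    exact ⟨v, Walk.nil, Walk.nil, rfl, hP, fun x hx hne => absurd (by simpa using hx) hne⟩
  | @cons a b c hab w ih =>
    by_cases ha : P a
    · exact ⟨a, Walk.nil, Walk.cons hab w, rfl, ha,
        fun x hx hne => absurd (by simpa using hx) hne⟩
    · obtain ⟨v, hv, hP⟩ := h
      have hv' : v ∈ w.support := by
        rw [Walk.support_cons, List.mem_cons] at hv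
        rcases hv with rfl | hv
        · exact absurd hP ha
        · exact hv
      obtain ⟨v', g1, g2, h1, h2, h3⟩ := ih ⟨v, hv', hP⟩
      refine ⟨v', Walk.cons hab g1, g2, by rw [h1]; rfl, h2, fun x hx hne => ?_⟩
      rw [Walk.support_cons, List.mem_cons] at hx
      rcases hx with rfl | hx
      · exact ha
      · exact h3 x hx hne

theorem line_dist (hW : UW G u idx L) {k : ℕ} {x y : V} (hx : x ∈ L k) (hy : y ∈ L k) :
    (G.dist x y : ℤ) ≤ |u x - u y| := by
  rcases le_total (u x) (u y) with hxy | hxy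
  · obtain ⟨w, hl, -⟩ := hW.line k x hx y hy hxy
    have := dist_le w
    rw [abs_sub_comm, abs_of_nonneg (by linarith)]
    omega
  · obtain ⟨w, hl, -⟩ := hW.line k y hy x hx hxy
    have := dist_le w
    rw [G.dist_comm] at this
    rw [abs_of_nonneg (by linarith)]
    omega

theorem band_eq {h o a b : ℤ} (hh : 0 < h) (h1 : 0 ≤ (a - o) % h + (b - a))
    (h2 : (a - o) % h + (b - a) < h) : (b - o) / h = (a - o) / h ∧
      (b - o) % h = (a - o) % h + (b - a) := by
  have h3 : b - o = ((a - o) % h + (b - a)) + h * ((a - o) / h) := by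
    have := Int.emod_add_mul_ediv (a - o) h
    linarith
  constructor
  · rw [h3, Int.add_mul_ediv_left _ _ hh.ne', Int.ediv_eq_zero_of_lt h1 h2, zero_add]
  · rw [h3, Int.add_mul_emod_self_left, Int.emod_eq_of_lt h1 h2]

theorem near_walk (hW : UW G u idx L) {h o : ℤ} (hh : 0 < h) {p z : V}
    (h1 : (G.dist p z : ℤ) ≤ (u p - o) % h) (h2 : (u p - o) % h + G.dist p z < h) :
    ∃ w : (HG G u h o).Walk p z, w.length = G.dist p z := by
  classical
  obtain ⟨w, hw⟩ := hW.conn.exists_walk_length_eq_dist p z
  obtain ⟨w', hl, -⟩ := lift_walk (u := u) (h := h) (o := o) (c := (u p - o) / h) w (by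
    intro v hv
    have h3 := height_walk hW.step (w.takeUntil v hv)
    have h4 := w.length_takeUntil_le_length hv
    rw [hw] at h4
    have h5 := abs_le.1 h3
    refine (band_eq hh ?_ ?_).1 <;> omega)
  exact ⟨w', by rw [hl, hw]⟩

/-- the short geodesic argument: the endpoint of a short walk from `z` lies left of the line of `y` -/
theorem left_of (hW : UW G u idx L) {κ : ℝ} (hκ : κ ≤ 1 / 10 ^ 6) {x z y : V}
    (hu : u z = u y) (hi : idx z ≤ idx y) (ht : 0 < (G.dist z y : ℝ))
    (hd : (G.dist x z : ℝ) ≤ κ * G.dist z y) : x ∉ L (idx y) ∧ idx x ≤ idx y := by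
  classical
  have key : ∀ v, (G.dist z v : ℝ) ≤ κ * G.dist z y → v ∉ L (idx y) := by
    intro v hv hvL
    have h1 := line_dist hW hvL (hW.mem y)
    rw [← hu] at h1
    have h2 := height_dist hW v z
    rw [G.dist_comm] at h2
    have h3 : (G.dist v y : ℤ) ≤ G.dist z v := by linarith
    have h3' : (G.dist v y : ℝ) ≤ G.dist z v := by exact_mod_cast h3
    have h4 : G.dist z y ≤ G.dist z v + G.dist v y := hW.conn.dist_triangle
    have h4' : (G.dist z y : ℝ) ≤ G.dist z v + G.dist v y := by exact_mod_cast h4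
    nlinarith
  rw [G.dist_comm] at hd
  refine ⟨key x hd, ?_⟩
  by_contra hcon
  push Not at hcon
  obtain ⟨w, hw⟩ := hW.conn.exists_walk_length_eq_dist z x
  obtain ⟨v, hv, hvL⟩ := hW.sep y z x w hi hcon.le
  refine key v ?_ hvL
  have h4 := w.length_takeUntil_le_length hv
  have h5 := dist_le (w.takeUntil v hv)
  have h6 : (G.dist z v : ℝ) ≤ G.dist z x := by
    rw [← hw]; exact_mod_cast h5.trans h4
  linarith

/-- real inequality of case (beta) -/
theorem beta_ineq {κ t c e1 A rv rp d : ℝ} (hκ0 : 0 < κ) (hκ : κ ≤ 1 / 10 ^ 6) (ht0 : 0 < t)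
    (hc0 : 0 ≤ c) (he : e1 ≤ κ ^ 2 / 10 ^ 5) (hrv : 0 ≤ rv) (hrp : 0 ≤ rp)
    (hrpt : rp ≤ t) (hd : d ≤ 300 * c + t) (h4 : rv ≤ rp + d / κ)
    (hA : t / 1000 ≤ A) (h5 : A ≤ c + 2 * e1 * rv + 2 * e1 * rp + κ * t) :
    A + 2 * κ * t ≤ (11 / 10) * c := by
  have h7 : rv ≤ t + (300 * c + t) / κ := by
    have : d / κ ≤ (300 * c + t) / κ := by gcongr
    linarith
  have hκt : 0 ≤ κ * t := by positivity
  have hκc : 0 ≤ κ * c := by positivity
  have h8 : 2 * e1 * rv ≤ κ * t / 4 + κ * c := by
    have h9 : 2 * e1 * rv ≤ 2 * (κ ^ 2 / 10 ^ 5) * (t + (300 * c + t) / κ) := by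
      gcongr
    have h10 : 2 * (κ ^ 2 / 10 ^ 5) * (t + (300 * c + t) / κ) =
        2 / 10 ^ 5 * (κ * (κ * t) + (300 * (κ * c) + κ * t)) := by
      field_simp
    rw [h10] at h9
    have h11 : κ * (κ * t) ≤ 1 / 10 ^ 6 * (κ * t) := by gcongr
    linarith
  have h12 : 2 * e1 * rp ≤ κ * t / 4 := by
    have h13 : 2 * e1 * rp ≤ 2 * (κ ^ 2 / 10 ^ 5) * t := by
      gcongr
    have h14 : 2 * (κ ^ 2 / 10 ^ 5) * t = 2 / 10 ^ 5 * (κ * (κ * t)) := by ring
    have h11 : κ * (κ * t) ≤ 1 / 10 ^ 6 * (κ * t) := by gcongr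
    rw [h14] at h13
    linarith
  have h15 : κ * t ≤ 1 / 10 ^ 6 * t := by gcongr
  have h16 : κ * c ≤ 1 / 10 ^ 6 * c := by gcongr
  linarith

/-- THE STRETCH LEMMA -/
theorem stretch (hW : UW G u idx L) {m o : ℤ} (hm : 0 < m) {κ K e1 T : ℝ} (hκ0 : 0 < κ)
    (hκ : κ ≤ 1 / 10 ^ 6) (hK : K ≤ 1 / 1000) (he0 : 0 ≤ e1)
    (he : e1 ≤ κ ^ 2 / 10 ^ 5) (hT0 : 0 ≤ T) (hT : T ≤ 4 * m)
    {ρ' U' : V → ℝ} (hρ0 : ∀ x, 0 ≤ ρ' x) (hρ : ∀ x y, ρ' y ≤ ρ' x + G.dist x y / κ)
    (hU : ∀ x, |U' x - u x| ≤ 2 * e1 * ρ' x)
    (hLB : ∀ p q (g : G.Walk p q), (1 / 300) * (G.dist p q - K * ρ' p) ≤ cost U' g)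
    (n : ℕ) : ∀ {p q : V} (g : G.Walk p q), g.length = n →
    (∀ x ∈ g.support, 6 * m ≤ (u x - o) % (16 * m) ∧ (u x - o) % (16 * m) ≤ 8 * m) →
    (∀ x ∈ g.support, (u x - o) / (16 * m) = (u p - o) / (16 * m)) →
    (∀ x ∈ g.support, 0 < ρ' x → ∃ z y, u z = u y ∧ idx z ≤ idx y ∧
      ρ' x ≤ G.dist z y ∧ (G.dist x z : ℝ) ≤ κ * G.dist z y ∧ (G.dist z y : ℝ) ≤ T ∧
      (HG G u (16 * m) o).Reachable z y ∧
      (DD G u idx (16 * m) o y : ℝ) < DD G u idx (16 * m) o z + κ * G.dist z y) →
    (DD G u idx (16 * m) o q : ℝ) ≤ DD G u idx (16 * m) o p + (11 / 10) * cost U' g + T := by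
  have hh : (0:ℤ) < 16 * m := by linarith
  induction n using Nat.strong_induction_on with
  | _ n ih =>
  intro p q g hlen hpos hband hwit
  rcases (hρ0 p).lt_or_eq with hp | hp
  · -- C-stretch
    obtain ⟨z, y, hu, hi, ht1, hd, htT, hr, hD⟩ := hwit p g.start_mem_support hp
    set t : ℝ := (G.dist z y : ℝ) with ht
    have ht0 : 0 < t := lt_of_lt_of_le hp ht1
    obtain ⟨hpL, hpi⟩ := left_of hW hκ hu hi ht0 hd
    -- the geodesic p z is in the band
    have hmR : (0:ℝ) < m := by exact_mod_cast hm
    have hκt0 : κ * t ≤ 1 / 10 ^ 6 * t := by gcongr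
    have hpz : (G.dist p z : ℝ) ≤ m := by linarith
    have hpz' : (G.dist p z : ℤ) ≤ m := by exact_mod_cast hpz
    obtain ⟨hp1, hp2⟩ := hpos p g.start_mem_support
    obtain ⟨wz, hwz⟩ := near_walk (u := u) (o := o) hW hh (p := p) (z := z) (by linarith)
      (by linarith)
    have hz1 := DD_walk (idx := idx) wz
    have hz1' : (DD G u idx (16 * m) o z : ℝ) ≤ DD G u idx (16 * m) o p + G.dist p z := by
      rw [← hwz]; exact_mod_cast hz1
    have hpy : (HG G u (16 * m) o).Reachable p y := wz.reachable.trans hr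
    have huz : |(u p : ℝ) - u z| ≤ κ * t := by
      have := height_dist hW p z
      have h2 : |(u p : ℝ) - u z| ≤ G.dist p z := by exact_mod_cast this
      linarith
    -- gain estimate
    have gain : ∀ v, (HG G u (16 * m) o).Reachable p v → idx v ≤ idx y →
        (DD G u idx (16 * m) o v : ℝ) ≤ DD G u idx (16 * m) o p + |(u v : ℝ) - u z| + 2 * κ * t := by
      intro v hv hvi
      have h1 := clock_M hW hh (hv.symm.trans hpy) hvi
      have h2 : (DD G u idx (16 * m) o v : ℝ) ≤ DD G u idx (16 * m) o y + |(u v : ℝ) - u y| := by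
        exact_mod_cast h1
      rw [← hu] at h2
      linarith
    by_cases hex : ∃ v ∈ g.support, (v ∈ L (idx y) ∨ t / 1000 ≤ |(u v : ℝ) - u z|)
    · obtain ⟨v, g1, g2, hg, hv, hfirst⟩ := first _ g hex
      have hsub1 : ∀ x ∈ g1.support, x ∈ g.support := by
        intro x hx
        rw [hg, Walk.mem_support_append_iff]
        exact Or.inl hx
      have hsub2 : ∀ x ∈ g2.support, x ∈ g.support := by
        intro x hx
        rw [hg, Walk.mem_support_append_iff]
        exact Or.inr hx
      have hvg : v ∈ g.support := hsub1 v g1.end_mem_support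
      -- reach p v
      obtain ⟨gl, -, -⟩ := lift_walk (u := u) (h := 16 * m) (o := o)
        (c := (u p - o) / (16 * m)) g1 (fun x hx => hband x (hsub1 x hx))
      have hpv : (HG G u (16 * m) o).Reachable p v := gl.reachable
      -- idx v ≤ idx y
      have hvi : idx v ≤ idx y := by
        rcases hv with hv | hv
        · exact hW.low _ _ hv
        · by_contra hcon
          push Not at hcon
          by_cases hvL : v ∈ L (idx y)
          · exact absurd (hW.low _ _ hvL) (by omega)
          obtain ⟨x, hx, hxL⟩ := hW.sep y p v g1 hpi hcon.le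
          exact hfirst x hx (fun hxv => hvL (hxv ▸ hxL)) (Or.inl hxL)
      have hne : v ≠ p := by
        intro hvp
        rw [hvp] at hv
        rcases hv with hv | hv
        · exact hpL hv
        · linarith
      have hg1 : 0 < g1.length := by
        rcases Nat.eq_zero_or_pos g1.length with h0 | h0
        · exact absurd (Walk.eq_of_length_eq_zero h0).symm hne
        · exact h0
      have hlen2 : g2.length < n := by
        rw [← hlen, hg, Walk.length_append]; omega
      have hvband := hband v hvg
      have hrec := ih g2.length hlen2 g2 rfl (fun x hx => hpos x (hsub2 x hx))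
        (fun x hx => (hband x (hsub2 x hx)).trans hvband.symm)
        (fun x hx => hwit x (hsub2 x hx))
      have hcost : cost U' g = cost U' g1 + cost U' g2 := by rw [hg, cost_append]
      have hgain := gain v hpv hvi
      have hL1 := hLB p v g1
      have hc0 := cost_nonneg U' g1
      -- main inequality
      have main : |(u v : ℝ) - u z| + 2 * κ * t ≤ (11 / 10) * cost U' g1 := by
        by_cases hA : t / 1000 ≤ |(u v : ℝ) - u z|
        · have h1 := cost_ge U' g1
          have h2 := hU v
          have h3 := hU p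
          have h4 := hρ p v
          have h5 : |(u v : ℝ) - u z| ≤ |U' p - U' v| + |U' v - u v| + |U' p - u p| +
              |(u p : ℝ) - u z| := by
            have e1 : (u v : ℝ) - u z = -(U' p - U' v) - (U' v - u v) + (U' p - u p) +
              ((u p : ℝ) - u z) := by ring
            rw [e1]
            calc _ ≤ |-(U' p - U' v) - (U' v - u v) + (U' p - u p)| + |(u p : ℝ) - u z| :=
                  abs_add_le _ _
              _ ≤ |-(U' p - U' v) - (U' v - u v)| + |(U' p - u p)| + |(u p : ℝ) - u z| := by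
                  gcongr; exact abs_add_le _ _
              _ ≤ _ := by
                  gcongr
                  calc |-(U' p - U' v) - (U' v - u v)| ≤ |-(U' p - U' v)| + |(U' v - u v)| :=
                        abs_sub _ _
                    _ = _ := by rw [abs_neg]
          have h6 : (G.dist p v : ℝ) ≤ 300 * cost U' g1 + t := by
            have : K * ρ' p ≤ t := by
              calc K * ρ' p ≤ 1 * t := by
                    have := hρ0 p
                    gcongr
                    linarith
                _ = t := one_mul t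
            linarith
          exact beta_ineq hκ0 hκ ht0 hc0 he (hρ0 v) (hρ0 p) ht1 h6 h4 hA (by linarith)
        · push Not at hA
          have hvL : v ∈ L (idx y) := by
            rcases hv with hv | hv
            · exact hv
            · exact absurd hv (not_le.2 hA)
          have h1 := line_dist hW hvL (hW.mem y)
          rw [← hu] at h1
          have h1' : (G.dist v y : ℝ) ≤ |(u v : ℝ) - u z| := by exact_mod_cast h1
          have h2 : G.dist z y ≤ G.dist z p + G.dist p v + G.dist v y := by
            have h3 : G.dist z y ≤ G.dist z v + G.dist v y := hW.conn.dist_triangle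
            have h4 : G.dist z v ≤ G.dist z p + G.dist p v := hW.conn.dist_triangle
            omega
          rw [G.dist_comm (u := z) (v := p)] at h2
          have h2' : t ≤ G.dist p z + G.dist p v + G.dist v y := by
            rw [ht]; exact_mod_cast h2
          have hκt : κ * t ≤ 1 / 10 ^ 6 * t := by gcongr
          have h5 : (G.dist p v : ℝ) ≥ (998 / 1000) * t := by linarith
          have h6 : K * ρ' p ≤ 1 / 1000 * t := by
            have := hρ0 p
            gcongr
          linarith
      rw [hcost]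
      linarith
    · -- g ends
      push Not at hex
      have hqi : idx q ≤ idx y := by
        by_contra hcon
        push Not at hcon
        obtain ⟨x, hx, hxL⟩ := hW.sep y p q g hpi hcon.le
        exact (hex x hx).1 hxL
      obtain ⟨gl, -, -⟩ := lift_walk (u := u) (h := 16 * m) (o := o)
        (c := (u p - o) / (16 * m)) g hband
      have h1 := gain q gl.reachable hqi
      have h2 := (hex q g.end_mem_support).2
      have hc0 := cost_nonneg U' g
      linarith
  · -- S-stretch
    cases g with
    | nil =>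
      have := cost_nonneg U' (Walk.nil : G.Walk p p)
      linarith
    | @cons _ b _ hab g' =>
      have hsub : ∀ x ∈ g'.support, x ∈ (Walk.cons hab g').support := by
        intro x hx; rw [Walk.support_cons]; exact List.mem_cons_of_mem _ hx
      have hbs : b ∈ (Walk.cons hab g').support := hsub b g'.start_mem_support
      have hbb := hband b hbs
      have hrec := ih g'.length (by rw [← hlen, Walk.length_cons]; omega) g' rfl
        (fun x hx => hpos x (hsub x hx))
        (fun x hx => (hband x (hsub x hx)).trans hbb.symm)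
        (fun x hx => hwit x (hsub x hx))
      have hadj : (HG G u (16 * m) o).Adj p b := ⟨hab, hbb.symm⟩
      have h1 := DD_walk (idx := idx) (Walk.cons hadj Walk.nil)
      have h1' : (DD G u idx (16 * m) o b : ℝ) ≤ DD G u idx (16 * m) o p + 1 := by
        exact_mod_cast h1
      have h2 := hU p
      rw [← hp] at h2
      have h2' : U' p = u p := by
        have := abs_nonneg (U' p - u p)
        have h3 : |U' p - u p| = 0 := by linarith
        linarith [abs_eq_zero.1 h3]
      have h3 := hU b
      have h4 := hρ p b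
      have h5 : G.dist p b = 1 := dist_eq_one_iff_adj.2 hab
      rw [← hp, h5] at h4
      have h6 : 2 * e1 * ρ' b ≤ κ := by
        have h7 : 2 * e1 * ρ' b ≤ 2 * (κ ^ 2 / 10 ^ 5) * (0 + (1:ℕ) / κ) := by
          have := hρ0 b
          gcongr
        have h8 : 2 * (κ ^ 2 / 10 ^ 5) * (0 + ((1:ℕ):ℝ) / κ) = 2 / 10 ^ 5 * κ := by
          field_simp
          push_cast
          ring
        rw [h8] at h7
        linarith
      have h9 := hW.step p b hab
      have h10 : |(u p : ℝ) - u b| = 1 := by exact_mod_cast h9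
      have h11 : 1 - κ ≤ |U' p - U' b| := by
        rw [h2']
        have : |(u p : ℝ) - u b| ≤ |(u p : ℝ) - U' b| + |U' b - u b| := abs_sub_le _ _ _
        linarith
      rw [cost_cons]
      linarith

end Vale.Agent.P235.ST.H530
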